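import Vale.Agent.P223R.Loc
import Vale.Agent.P223U.Defs

/-!
# P223R: the statement `RL`
-/

open MeasureTheory Filter Topology Set
open scoped ContDiff
open Vale.Agent.P366M Vale.Agent.P366M.Gr
open Vale.Agent.P366D (Rf)
open Vale.Agent.P210G Vale.Agent.P223U

noncomputable section

namespace Vale.Agent.P223R

theorem young_ph {s T y a : ℝ} (hs : 0 < s) :
    Real.exp y * (1 - Real.log (Real.exp y + Real.exp (-s * T)) - s * a) ≤
      2 * Ph s (T + 2 / s) a := by
  have p := Real.exp_pos y
  have p' := Real.exp_pos (-s * T)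
  have e : -s * (T + 2 / s) = -s * T - 2 := by field_simp; ring
  rcases le_total (s * T + 1) (s * a) with k | k
  · have := (Real.le_log_iff_exp_le (by positivity)).2 (le_add_of_nonneg_left p.le :
      Real.exp (-s * T) ≤ Real.exp y + Real.exp (-s * T))
    exact (mul_nonpos_of_nonneg_of_nonpos p.le (by linarith)).trans
      (mul_nonneg zero_le_two (le_max_right _ _))
  have h1 := (Real.le_log_iff_exp_le (by positivity)).2 (le_add_of_nonneg_right p'.le :
    Real.exp y ≤ Real.exp y + Real.exp (-s * T))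
  have h2 : Real.exp y * (1 - y - s * a) ≤ Real.exp (-s * a) := by
    rw [show -s * a = y + (-y - s * a) by ring, Real.exp_add]
    exact mul_le_mul_of_nonneg_left (by linarith [Real.add_one_le_exp (-y - s * a)]) p.le
  have h3 : 2 * Real.exp (-s * T - 2) ≤ Real.exp (-s * a) := by
    refine le_trans ?_ (Real.exp_le_exp.2 (show 1 + (-s * T - 2) ≤ -s * a by linarith))
    rw [Real.exp_add]
    exact mul_le_mul_of_nonneg_right (by linarith [Real.add_one_le_exp 1]) (Real.exp_pos _).le
  have h4 := le_max_left (Real.exp (-s * a) - Real.exp (-s * T - 2)) 0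
  rw [Ph, e]
  nlinarith

/-- **RL** -/
theorem rl : RL := by
  intro n M _ g R S V q ϖ b K K' s T δ hn hg hR hS hV hq hϖ hb ϖ0 b0 hK hK' hKK h hs hδ le
  obtain ⟨χ, s1, s2, s3, s4, s5⟩ := exists_cut hK isOpen_interior hKK
  have sub := s3.trans interior_subset
  obtain ⟨B, hB⟩ := hK'.exists_bound_of_continuousOn
    ((continuous_const (y := s)).mul (hV.cont.sub hg.sm_scal.cont) |>.sub hq.cont).continuousOn
  obtain ⟨ζ, hζ⟩ : ∃ ζ : M → ℝ, ζ = fun x => χ x * √(ϖ x) := ⟨_, rfl⟩
  have sζ : Smooth ζ := hζ ▸ CD.mul s1 (CD.sqrt hϖ fun x => (ϖ0 x).ne')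
  have cζ : HasCompactSupport ζ := hζ ▸ supp_mul_right s2
  have tζ : tsupport ζ ⊆ tsupport χ := hζ ▸ tsupport_mul_subset_left
  have ζ2 : ∀ x, ζ x ^ 2 = χ x ^ 2 * ϖ x := fun x => by
    rw [hζ, mul_pow, Real.sq_sqrt (ϖ0 x).le]
  obtain ⟨I, hI⟩ : ∃ I, I = ∫ x, ζ x ^ 2 ∂vol g := ⟨_, rfl⟩
  obtain ⟨J, hJ⟩ : ∃ J, J = ∫ x, ip g ζ ζ x ∂vol g := ⟨_, rfl⟩
  have I0 : 0 ≤ I := hI ▸ integral_nonneg fun _ => sq_nonneg _
  have J0 : 0 ≤ J := hJ ▸ integral_nonneg fun x => hg.ip_nonneg ζ x
  have cP : Continuous fun x => Ph s (T + 2 / s) (S x) * Real.exp (-q x) := by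
    have := hq.cont
    unfold Ph
    fun_prop
  have P0 : ∀ x, 0 ≤ Ph s (T + 2 / s) (S x) * Real.exp (-q x) := fun x =>
    mul_nonneg (le_max_right _ _) (Real.exp_pos _).le
  obtain ⟨f, a, b', c⟩ := relinkE (V := ℝ × ℝ) (Q := fun x => (V x, q x)) (F := fun _ => B)
    (Lk := fun p => p.1.1 - Real.log (Real.exp (p.2 + p.1.2) + Real.exp (-s * T)) / s)
    (U := interior {x | χ x = 1}) (ε := δ / (2 * (I + 1)) / s) hn hg (CD.prodMk hV hq)
    (fun x t => contDiffAt_fst.fst.sub ((((contDiffAt_snd.add contDiffAt_fst.snd).exp.add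
      contDiffAt_const).log (by positivity)).div_const s))
    (fun L hL => by
      obtain ⟨C, hC⟩ := hL.exists_bound_of_continuousOn (hV.cont.sub
        (((hq.cont.rexp.add (continuous_const (y := Real.exp (-s * T)))).log
          fun x => (add_pos (Real.exp_pos _) (Real.exp_pos _)).ne').div_const s)).continuousOn
      refine ⟨-C, 0, fun x hx t ht => (abs_le.1 (hC x hx)).1.trans (sub_le_sub_left
        (div_le_div_of_nonneg_right (Real.log_le_log (by positivity) ?_) hs.le) _)⟩
      exact add_le_add_left (Real.exp_le_exp.2 (by linarith)) _)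
    cd_const hK s2.isCompact isOpen_interior
    (fun x hx => mem_interior_iff_mem_nhds.2 (s5 x hx)) (fun x hx => by
      have k : s * (V x - scal g x) - q x ≤ B := (abs_le.1 (hB x (sub (subset_tsupport _ (by
        simp [show χ x = 1 from interior_subset (s := {x | χ x = 1}) hx]))))).2
      have := (Real.le_log_iff_exp_le (by positivity)).2 (le_add_of_nonneg_right
        (Real.exp_pos (-s * T)).le : Real.exp (B + q x) ≤ _)
      rw [Rf_const, sub_le_comm, le_div_iff₀' hs]
      linarith) (by positivity) (Real.log (δ / (8 * s * (J + 1))))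
  refine ⟨f, a, b', ?_⟩
  have e4 : δ / (2 * (I + 1)) * I ≤ δ / 2 := by
    rw [div_mul_eq_mul_div, div_le_div_iff₀ (by positivity) two_pos]; nlinarith
  have e5 : 4 * s * (δ / (8 * s * (J + 1))) * J ≤ δ / 2 := by
    rw [show 4 * s * (δ / (8 * s * (J + 1))) * J = δ * J / (2 * (J + 1)) by field_simp; ring,
      div_le_div_iff₀ (by positivity) two_pos]
    nlinarith
  have r0 : 0 < δ / (8 * s * (J + 1)) := by positivity
  generalize δ / (2 * (I + 1)) = r at *
  generalize δ / (8 * s * (J + 1)) = r' at *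
  have k := mul_nonneg hs.le (spec_gs h hg hR a sζ cζ (tζ.trans s3))
  have i0 := gs_int hg a sζ cζ hR 4
  have i1 : Integrable (fun x => ζ x ^ 2 * (Ph s (T + 2 / s) (S x) * Real.exp (-q x)))
    (vol g) := hg.integrable_supp ((sζ.cont.pow 2).mul cP) (supp_mul_right (supp_sq cζ))
  have i2 : Integrable (fun x => ζ x ^ 2) (vol g) :=
    hg.integrable_supp (sζ.cont.pow 2) (supp_sq cζ)
  have i3 : Integrable (fun x => ζ x ^ 2 * ((1 + b x) * Real.exp (f x))) (vol g) :=
    hg.integrable_supp ((sζ.cont.pow 2).mul ((continuous_const.add hb).mul a.cont.rexp))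
      (supp_mul_right (supp_sq cζ))
  have i4 := hg.integrable_supp (hg.cont_ip sζ.one sζ.one) (supp_ip cζ g ζ)
  have m := integral_mono (i3.add (i0.const_mul s)) ((i1.const_mul 2).add ((i2.const_mul r).add
    (i4.const_mul (4 * s * r')))) fun x => by
      simp only [Pi.add_apply]
      have p := hg.ip_nonneg ζ x
      have p1 := mul_nonneg (mul_pos hs r0).le p
      by_cases hx : x ∈ tsupport χ
      swap
      · have hx' := fun k => hx (tζ k)
        simp [image_eq_zero_of_notMem_tsupport hx', ip, pd_zero_of_notMem hx']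
      have k := (le_div_iff₀' hs).1 (c x (.inr hx)).2.1
      have y := mul_le_mul_of_nonneg_right (young_ph (T := T) (y := f x + q x) (a := S x) hs)
        (Real.exp_pos (-q x)).le
      rw [mul_right_comm, ← Real.exp_add, add_neg_cancel_right] at y
      have e : s * (Real.log (Real.exp (f x + q x) + Real.exp (-s * T)) / s) =
        Real.log (Real.exp (f x + q x) + Real.exp (-s * T)) := mul_div_cancel₀ _ hs.ne'
      have l := mul_le_mul_of_nonneg_left (le x (sub hx)) (mul_pos hs (Real.exp_pos (f x))).le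
      have e' : s * (b x / s) = b x := mul_div_cancel₀ _ hs.ne'
      have z : Real.exp (f x) * (1 + b x + s * (Rf g f x - R x)) +
          s * Real.exp (f x) * (gn g ϖ x / ϖ x) ^ 2 ≤
          2 * (Ph s (T + 2 / s) (S x) * Real.exp (-q x)) + r := by
        simp only at k
        linear_combination k + y - Real.exp (f x) * e + l - Real.exp (f x) * e'
      have z' := mul_le_mul_of_nonneg_left z (sq_nonneg (ζ x))
      by_cases hU : x ∈ interior {x | χ x = 1}
      · have u : ζ =ᶠ[𝓝 x] fun y => √(ϖ y) := mem_of_superset (mem_interior_iff_mem_nhds.1 hU)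
          fun y (k : χ y = 1) => by simp [hζ, k]
        have d := Real.hasDerivAt_sqrt (ϖ0 x).ne'
        have : 4 * ip g ζ ζ x = ζ x ^ 2 * (gn g ϖ x / ϖ x) ^ 2 := by
          rw [ip_congr u u, ip_comp_left d (hϖ.diff x), ip_comp_right d (hϖ.diff x),
            u.self_of_nhds, div_pow, hg.gn_sq, Real.sq_sqrt (ϖ0 x).le, ← mul_assoc (1 / _),
            ← sq, div_pow, mul_pow, Real.sq_sqrt (ϖ0 x).le]
          field_simp [(ϖ0 x).ne']
          ring
        linear_combination z' + 4 * p1 + s * Real.exp (f x) * this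
      · have t := Real.exp_le_exp.2 ((c x (.inr hx)).2.2 hU)
        rw [Real.exp_log r0] at t
        have t' := mul_le_mul_of_nonneg_right t (mul_nonneg hs.le p)
        have := mul_nonneg (sq_nonneg (ζ x)) (mul_nonneg (mul_pos hs (Real.exp_pos (f x))).le
          (sq_nonneg (gn g ϖ x / ϖ x)))
        linear_combination z' + 4 * t' + this
  rw [integral_add' i3 (i0.const_mul s), integral_add' (i1.const_mul 2) ((i2.const_mul r).add
    (i4.const_mul _)), integral_add' (i2.const_mul r) (i4.const_mul _), integral_const_mul,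
    integral_const_mul, integral_const_mul, integral_const_mul, ← hI, ← hJ] at m
  have := hg.locFin
  have e2 : ∫ x, ζ x ^ 2 * (Ph s (T + 2 / s) (S x) * Real.exp (-q x)) ∂vol g ≤
      ∫ x in K', ϖ x * (Ph s (T + 2 / s) (S x) * Real.exp (-q x)) ∂vol g := by
    rw [← setIntegral_eq_integral_of_forall_compl_eq_zero (s := K') fun x hx => by
      simp [image_eq_zero_of_notMem_tsupport fun k => hx (sub (tζ k))]]
    exact setIntegral_mono_on i1.integrableOn ((hϖ.cont.mul cP).continuousOn.integrableOn_compact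
      hK') hK'.measurableSet fun x _ => mul_le_mul_of_nonneg_right (ζ2 x ▸ mul_le_of_le_one_left
        (ϖ0 x).le (pow_le_one₀ (s4 x).1 (s4 x).2)) (P0 x)
  have e3 : ∫ x in K, ϖ x * (1 + b x) * Real.exp (f x) ∂vol g ≤
      ∫ x, ζ x ^ 2 * ((1 + b x) * Real.exp (f x)) ∂vol g := by
    refine le_trans (le_of_eq (setIntegral_congr_fun hK.measurableSet fun x hx => ?_))
      (setIntegral_le_integral i3 (.of_forall fun x => mul_nonneg (sq_nonneg _)
        (mul_nonneg (by linarith [b0 x]) (Real.exp_pos _).le)))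
    simp [ζ2, (s5 x hx).self_of_nhds, mul_assoc]
  linarith

end Vale.Agent.P223R
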