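import Vale.Agent.P223R.Link

/-!
# P223R: local relinking, the energy inequality, stability, smooth maxima
-/

open MeasureTheory Filter Topology Set
open scoped ContDiff
open Vale.Agent.P366M Vale.Agent.P366M.Gr Vale.Agent.P366M.Y.C
open Vale.Agent.P366D (Rf Sec SmM IsoM smooth_comp cd_comp exp_half)
open Vale.Agent.P210G
open Vale.Agent.P210L (closeup sec_down)

noncomputable section

namespace Vale.Agent.P223R

variable {n : ℕ} {X : Type} [Mf0 n X] {g : Fld n X} {f F χ S Φ P W w B : X → ℝ} {x : X}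
  {V : Type} [NormedAddCommGroup V] [NormedSpace ℝ V] {Q : X → V} {Lk : V × ℝ → ℝ}
  {K K' O U : Set X} {s δ ε κ T : ℝ}

omit [Mf0 n X] in
theorem lk_ext {W : Type} [NormedAddCommGroup W] [NormedSpace ℝ W] {q : V} {r : W} {t : ℝ}
    (h : ContDiffAt ℝ ∞ Lk (q, t)) :
    ContDiffAt ℝ ∞ (fun p : (V × W) × ℝ => Lk (p.1.1, p.2)) ((q, r), t) :=
  ContDiffAt.comp (f := fun p : (V × W) × ℝ => (p.1.1, p.2)) _ h
    (contDiffAt_fst.fst.prodMk contDiffAt_snd)

/-- **local relinking**: a solution on `K`, a subsolution on `K'`, very negative off `U` -/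
theorem relinkL (hn : 0 < n) (hg : Met g) (hQ : CD ∞ Q) (hL : ∀ x t, ContDiffAt ℝ ∞ Lk (Q x, t))
    (lo : Lo Q Lk) (hF : Smooth F) (hK : IsCompact K) (hK' : IsCompact K') (hU : IsOpen U)
    (hKU : K ⊆ U) (e : ∀ x ∈ U, Lk (Q x, F x) ≤ Rf g F x) (T : ℝ) :
    ∃ f, Smooth f ∧ (∀ x ∈ K, Rf g f x = Lk (Q x, f x)) ∧
      ∀ x ∈ K ∪ K', f x ≤ F x ∧ Rf g f x ≤ Lk (Q x, f x) ∧ (x ∉ U → f x ≤ T) := by
  rcases (K ∪ K').eq_empty_or_nonempty with h0 | hne
  · exact ⟨F, hF, fun x hx => absurd (h0.le (Or.inl hx)) id, fun x hx => absurd (h0.le hx) id⟩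
  obtain ⟨Y, _, _, π, σ, Z, a, -, h⟩ := closeup hg (hK.union hK') isOpen_univ (subset_univ _) hne
  have hY : Met (bg : Fld n Y) := bg_met
  have cπ : Continuous π := continuous_iff_continuousAt.2 fun x => (h.sm x).ct
  have o := h.isOpen (h.opn.inter hU) inter_subset_left
  obtain ⟨c, c1, c2, c3, c4, c5⟩ := exists_cut (hK.image_of_continuousOn
    (h.contOn.mono (subset_union_left.trans a))) o
    (image_mono (subset_inter (subset_union_left.trans a) hKU))
  obtain ⟨d, d1, -, d3, d4, d5⟩ := exists_cut c2.isCompact o c3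
  have sF := smooth_comp h.sm hF
  have sQ := cd_comp h.sm le_rfl hQ
  obtain ⟨M, -, hM⟩ := bdd sF.cont
  have sG : Smooth fun y => F (π y) - |M - T| * (1 - d y) :=
    CD.sub sF (CD.mul cd_const (CD.sub cd_const d1))
  obtain ⟨A, A0, hA⟩ := bdd ((cont_lk sQ (fun _ => hL _) sG.cont).sub (sm_Rf hY sG).cont)
  have cA : ∀ y, 0 ≤ A * (1 - c y) ∧ A * (1 - c y) ≤ A := fun y =>
    ⟨mul_nonneg A0 (sub_nonneg.2 (c4 y).2), by nlinarith [(c4 y).1]⟩
  obtain ⟨u, u1, u2⟩ := relink_le (V := V × ℝ) (Q := fun y => (Q (π y), A * (1 - c y)))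
    (Lk := fun p => Lk (p.1.1, p.2) - p.1.2) hn hY
    (sQ.prodMk (CD.mul cd_const (CD.sub cd_const c1)))
    (fun y t => (lk_ext (hL (π y) t)).sub contDiffAt_fst.snd)
    (fun L hL C => (lo _ (hL.image cπ) (C + A)).imp fun T k y hy t ht => by
      linarith [k _ ⟨y, hy, rfl⟩ t ht, (cA y).2]) sG fun y => by
      by_cases hy : y ∈ tsupport c
      · obtain ⟨z, hz, rfl⟩ := c3 hy
        have q := d5 _ hy
        rw [(h.iso z hz.1).Rf (hF.c2 _) (q.mono fun y k => by simp only [k, sub_self, mul_zero,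
          sub_zero])]
        simp only [q.self_of_nhds, sub_self, mul_zero, sub_zero, h.rt z hz.1]
        linarith [e z hz.2, (cA (σ z)).1]
      · have : Lk (Q (π y), _) - Rf bg _ y ≤ A := (abs_le.1 (hA y)).2
        simp only [image_eq_zero_of_notMem_tsupport hy]
        linarith
  obtain ⟨f, p, q⟩ := sec_down h (hK.union hK') a u1
  have r : ∀ z ∈ K ∪ K', f z = u (σ z) ∧ Rf g f z = Lk (Q z, f z) - A * (1 - c (σ z)) :=
    fun z hz => by
      have := (u2 (σ z)).2
      have k : f z = u (σ z) := (q z hz).1.self_of_nhds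
      rw [(h.iso z (a hz)).Rf (p.c2 _) (q z hz).2, h.rt z (a hz), ← k] at this
      exact ⟨k, this⟩
  refine ⟨f, p, fun z hz => ?_, fun z hz => ?_⟩
  · rw [(r z (Or.inl hz)).2, (c5 _ ⟨z, hz, rfl⟩).self_of_nhds]
    ring
  have k := (u2 (σ z)).1
  have k1 := (abs_le.1 (hM (σ z))).2
  rw [h.rt z (a hz)] at k k1
  rw [← (r z hz).1] at k
  refine ⟨by nlinarith [(d4 (σ z)).2, abs_nonneg (M - T)], by linarith [(r z hz).2, (cA (σ z)).1],
    fun hz' => ?_⟩
  rw [image_eq_zero_of_notMem_tsupport (f := d) fun m => by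
    obtain ⟨y, hy, e⟩ := d3 m
    exact hz' (by rw [← h.rt z (a hz), ← e, h.rt y hy.1]; exact hy.2)] at k
  linarith [le_abs_self (M - T)]

/-- local relinking for a link with a definite slope -/
theorem relinkS (hn : 0 < n) (hg : Met g) (hQ : CD ∞ Q) (hL : ∀ x t, ContDiffAt ℝ ∞ Lk (Q x, t))
    (hδ : 0 < δ) (h : Slope Q Lk δ) (hK : IsCompact K) (hK' : IsCompact K') (hU : IsOpen U)
    (hKU : K ⊆ U) (T : ℝ) : ∃ f, Smooth f ∧ (∀ x ∈ K, Rf g f x = Lk (Q x, f x)) ∧
      ∀ x ∈ K ∪ K', Rf g f x ≤ Lk (Q x, f x) ∧ (x ∉ U → f x ≤ T) := by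
  obtain ⟨χ, s1, s2, s3, -, s4⟩ := exists_cut hK hU hKU
  obtain ⟨c, hc⟩ := h.hi hδ hg hQ hL s2.isCompact
  obtain ⟨f, a, b, d⟩ := relinkL hn hg hQ hL (h.lo hδ hQ hL) cd_const hK hK' isOpen_interior
    (fun x hx => mem_interior_iff_mem_nhds.2 ((s4 x hx).mono fun y hy => subset_tsupport _ (by
      simp [hy]))) (fun x hx => hc x (interior_subset hx)) T
  exact ⟨f, a, b, fun x hx => ⟨(d x hx).2.1, fun k => (d x hx).2.2 fun m =>
    k (s3 (interior_subset m))⟩⟩

/-- local relinking for a link which is only bounded below -/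
theorem relinkE (hn : 0 < n) (hg : Met g) (hQ : CD ∞ Q) (hL : ∀ x t, ContDiffAt ℝ ∞ Lk (Q x, t))
    (lo : ∀ K, IsCompact K → ∃ C T, ∀ x ∈ K, ∀ t ≤ T, C ≤ Lk (Q x, t)) (hF : Smooth F)
    (hK : IsCompact K) (hK' : IsCompact K') (hU : IsOpen U) (hKU : K ⊆ U)
    (e : ∀ x ∈ U, Lk (Q x, F x) ≤ Rf g F x) (hε : 0 < ε) (T : ℝ) :
    ∃ f, Smooth f ∧ (∀ x ∈ K, Lk (Q x, f x) ≤ Rf g f x) ∧ ∀ x ∈ K ∪ K', f x ≤ F x ∧
      Real.exp (f x) * (Rf g f x - Lk (Q x, f x)) ≤ ε ∧ (x ∉ U → f x ≤ T) := by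
  obtain ⟨M, hM⟩ := (hK.union hK').exists_bound_of_continuousOn hF.cont.continuousOn
  have p : 0 < ε / Real.exp M := by positivity
  obtain ⟨f, a, b, d⟩ := relinkL (V := V × ℝ) (Q := fun y => (Q y, F y))
    (Lk := fun p => Lk (p.1.1, p.2) + ε / Real.exp M * (p.1.2 - p.2)) hn hg (hQ.prodMk hF)
    (fun y t => (lk_ext (hL y t)).add
      (contDiffAt_const.mul (contDiffAt_fst.snd.sub contDiffAt_snd)))
    (fun L hL C => by
      obtain ⟨C', T, k⟩ := lo L hL
      obtain ⟨N, hN⟩ := hL.exists_bound_of_continuousOn hF.cont.continuousOn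
      refine ⟨min T (-N - (C - C') / (ε / Real.exp M)), fun y hy t ht => ?_⟩
      have := (div_le_iff₀' p).1 (show (C - C') / (ε / Real.exp M) ≤ F y - t by
        linarith [ht.trans (min_le_right _ _), (abs_le.1 (hN y hy)).1])
      linarith [k y hy t (ht.trans (min_le_left _ _))])
    hF hK hK' hU hKU (fun x hx => by simpa using e x hx) T
  refine ⟨f, a, fun x hx => ?_, fun x hx => ⟨(d x hx).1, ?_, (d x hx).2.2⟩⟩
  · linarith [b x hx, mul_nonneg p.le (sub_nonneg.2 (d x (Or.inl hx)).1)]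
  have k : Real.exp (f x) * (F x - f x) ≤ Real.exp M := by
    refine le_trans ?_ (Real.exp_le_exp.2 (abs_le.1 (hM x hx)).2)
    rw [show F x = f x + (F x - f x) by ring, Real.exp_add, add_sub_cancel_left]
    exact mul_le_mul_of_nonneg_left (by linarith [Real.add_one_le_exp (F x - f x)])
      (Real.exp_pos _).le
  have := mul_le_mul_of_nonneg_left k p.le
  rw [div_mul_cancel₀ _ (Real.exp_pos _).ne'] at this
  nlinarith [(d x hx).2.1, Real.exp_pos (f x)]

/-- the mass inequality with a weight of small logarithmic gradient on `U` -/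
theorem massL (h : Spec g S 4 O) (hg : Met g) (hS : Continuous S) (hf : Smooth f) (hχ : Smooth χ)
    (hc : HasCompactSupport χ) (hO : tsupport χ ⊆ O) (hs : 0 ≤ s) (hΦ : Continuous Φ)
    (y : ∀ x, χ x ≠ 0 → Real.exp (f x) * (1 + s * (Rf g f x - S x)) ≤ Φ x) (hκ : 0 ≤ κ)
    (k : ∀ x ∈ U, ip g χ χ x ≤ κ * χ x ^ 2) (t : ∀ x ∈ tsupport χ, x ∉ U → f x ≤ T) :
    (1 - 4 * s * κ) * ∫ x, χ x ^ 2 * Real.exp (f x) ∂vol g ≤
      ∫ x, χ x ^ 2 * Φ x ∂vol g + 4 * s * (Real.exp T * ∫ x, ip g χ χ x ∂vol g) := by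
  have i2 := hg.integrable_supp ((hχ.cont.pow 2).mul hf.cont.rexp) (supp_mul_right (supp_sq hc))
  have i3 := hg.integrable_supp (hg.cont_ip hχ.one hχ.one) (supp_ip hc g χ)
  have i4 := hg.integrable_supp (hf.cont.rexp.mul (hg.cont_ip hχ.one hχ.one))
    (supp_mul_left (supp_ip hc g χ))
  have := integral_mono i4 ((i2.const_mul κ).add (i3.const_mul (Real.exp T))) fun x => by
    simp only [Pi.add_apply, Pi.mul_apply, Pi.pow_apply]
    have p := hg.ip_nonneg χ x
    have p1 := mul_nonneg hκ (mul_nonneg (sq_nonneg (χ x)) (Real.exp_pos (f x)).le)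
    have p2 := mul_nonneg (Real.exp_pos T).le p
    by_cases hx : x ∈ U
    · linarith [mul_le_mul_of_nonneg_left (k x hx) (Real.exp_pos (f x)).le]
    by_cases hx' : x ∈ tsupport χ
    · linarith [mul_le_mul_of_nonneg_right (Real.exp_le_exp.2 (t x hx' hx)) p]
    · rw [show ip g χ χ x = 0 by simp [ip, pd_zero_of_notMem hx']]
      linarith
  rw [integral_add' (i2.const_mul _) (i3.const_mul _), integral_const_mul, integral_const_mul] at this
  simp only [Pi.mul_apply, Pi.pow_apply] at this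
  linarith [mass h hg hS hf hχ hc hO hs hΦ y, mul_le_mul_of_nonneg_left this hs]

/-- **stability gives the spectral bound** -/
theorem spec_of_stb (h : StbP g f O P) (hg : Met g) (hf : Smooth f) (hP : Continuous P)
    (hS : Continuous S) (h' : Spec g S 4 O) : Spec g (fun x => P x + (S x - Rf g f x) / 2) 4 O := by
  intro ζ hζ hc hO
  have sχ : Smooth fun x => ζ x * Real.exp (-f x / 2) :=
    CD.mul hζ (CD.exp (CD.div_const (CD.neg hf) 2))
  have cχ : HasCompactSupport fun x => ζ x * Real.exp (-f x / 2) := supp_mul_right hc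
  have oχ : tsupport (fun x => ζ x * Real.exp (-f x / 2)) ⊆ O := tsupport_mul_subset_left.trans hO
  have cS := hP.add ((hS.sub (sm_Rf hg hf).cont).div_const 2)
  have e := gs hg hf sχ cχ cS
  simp only [mul_assoc, ← Real.exp_add, neg_div, neg_add_cancel, Real.exp_zero, mul_one] at e
  simp only [← neg_div] at e
  have i1 := int_svP hg hf sχ cχ hP
  have i2 := gs_int hg hf sχ cχ hS 4
  have k := add_nonneg (h _ sχ cχ oχ) 
    (div_nonneg (spec_gs h' hg hS hf sχ cχ oχ) zero_le_two)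
  rw [← integral_div, ← integral_add i1 (i2.div_const 2)] at k
  refine (k.trans_eq (integral_congr_ae (.of_forall fun x => ?_))).trans_eq e.symm
  simp only [svP, Pi.add_apply, Pi.sub_apply]
  ring

theorem spec_Rv (hg : Met g) {v : Fin n → X → ℝ} (hv : CC ∞ v) : Spec g (Rv g v) 4 O := by
  simpa using spec_of_Rv (O := O) (θ := 0) hg hv (sm_Rv hg hv).cont (by norm_num) (by simp)

theorem spec_Rf (hg : Met g) (hF : Smooth F) : Spec g (Rf g F) 4 O := by
  have := spec_Rv (O := O) hg (v := fun i y => -pd i F y) (CC.neg hF.cc_pd)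
  rwa [show Rv g (fun i y => -pd i F y) = Rf g F from funext fun x => Rv_neg_df (hF.c2 x)] at this

/-- a Hardy weight -/
theorem Rf_hardy (hg : Met g) (hf : CAt 2 f x) (hW : CAt 2 W x) (h0 : 0 < W x) :
    Rf g (fun y => f y + Real.log (W y)) x =
      Rf g f x - 2 * ((lap g W x + ip g f W x) / W x) + ip g W W x / W x ^ 2 := by
  obtain ⟨e1, e2⟩ := Rf_log hg hW h0 1
  simp only [one_mul] at e1 e2
  have c : CAt 2 (fun y => Real.log (W y)) x := hW.log h0.ne'
  rw [Rf] at e1 ⊢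
  rw [hg.lap_add hf c, ip_add_left (diff2 hf) (diff2 c), ip_add_right (diff2 hf) (diff2 c),
    ip_add_right (diff2 hf) (diff2 c), hg.ip_sy (fun y => Real.log (W y)) f, ip_comp_right (Real.hasDerivAt_log h0.ne')
    (diff2 hW), Rf, add_div, div_eq_inv_mul (ip g f W x)]
  linarith

/-- the area element is convex -/
theorem ww_sub (hg : Met g) (w B : X → ℝ) (x : X) :
    ww g 1 w x - ww g 1 B x ≤ dn g w w x - dn g w B x := by
  have p := w_pos hg w x
  have q := w_pos hg B x
  rw [dn, dn, ← sub_div, le_div_iff₀ p]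
  have : 1 + ip g w B x ≤ ww g 1 w x * ww g 1 B x := by
    refine le_trans (le_abs_self _) (abs_le_of_sq_le_sq' ?_ (by positivity)).2
    rw [sq_abs, mul_pow, w_sq hg, w_sq hg]
    have := two_iv_le hg (df w) (df B) x one_pos
    rw [iv_df, iv_df, iv_df] at this
    nlinarith [hg.ip_cs w B x, le_abs_self (ip g w B x)]
  nlinarith [w_sq hg w x]

/-- **the energy inequality** -/
theorem energy (hg : Met g) (hf : Smooth f) (hw' : Smooth w) (hB : Smooth B) (hχ : Smooth χ)
    (h0 : ∀ x, 0 ≤ χ x) (hc : HasCompactSupport fun x => χ x * (w x - B x)) :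
    ∫ x, χ x * Real.exp (f x) * (ww g 1 w x - ww g 1 B x + hw g f w x * (w x - B x)) ∂vol g ≤
      ∫ x, Real.exp (f x) * (|w x - B x| * gn g χ x) ∂vol g := by
  have sd : Smooth fun x => w x - B x := CD.sub hw' hB
  have sψ : Smooth fun x => χ x * (w x - B x) := CD.mul hχ sd
  have k := test_id hg hf.one hw' sψ.llip hc
  have z : ∀ x ∉ tsupport fun x => χ x * (w x - B x),
      (χ x ≠ 0 → w =ᶠ[𝓝 x] B) ∧ (w x - B x ≠ 0 → χ =ᶠ[𝓝 x] fun _ => 0) := fun x hx =>
    ⟨fun q => by
      filter_upwards [notMem_tsupport_iff_eventuallyEq.1 hx, hχ.cont.continuousAt.eventually_ne q]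
        with y a b using sub_eq_zero.1 ((mul_eq_zero.1 a).resolve_left b), fun q => by
      filter_upwards [notMem_tsupport_iff_eventuallyEq.1 hx, sd.cont.continuousAt.eventually_ne q]
        with y a b using (mul_eq_zero.1 a).resolve_right b⟩
  have i1 := hg.integrable_supp ((hχ.cont.mul hf.cont.rexp).mul
    (((sm_w hg hw').cont.sub (sm_w hg hB).cont).add ((sm_hw hg hf hw').cont.mul sd.cont)))
    (HasCompactSupport.intro hc fun x hx => by
      by_cases q : χ x = 0
      · simp [q]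
      · simp [(ww_congr ((z x hx).1 q)).self_of_nhds, ((z x hx).1 q).self_of_nhds])
  have i2 := hg.integrable_supp (hf.cont.rexp.mul (sd.cont.abs.mul (hg.cont_gn hχ.one)))
    (HasCompactSupport.intro hc fun x hx => by
      by_cases q : w x - B x = 0
      · simp [q]
      · simp [gn, ip_congr ((z x hx).2 q) .rfl, ip_const_left])
  have i3 := hg.integrable_supp (hf.cont.rexp.mul (sψ.cont.mul (sm_hw hg hf hw').cont))
    (supp_mul_left (supp_mul_right hc))
  have i4 := hg.integrable_supp (hf.cont.rexp.mul (sm_dn hg hw' sψ).cont)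
    (supp_mul_left (HasCompactSupport.intro hc fun x hx => by
      simp [dn, ip, pd_zero_of_notMem hx]))
  have := integral_mono i1 (i2.add (i3.add i4)) fun x => by
    simp only [Pi.add_apply, Pi.mul_apply, Pi.sub_apply, dn_mul (hχ.diff x) (sd.diff x),
      dn_lin (s := 1) (t := -1) (v := fun x => w x - B x) (w := w) (ζ := B) fun i => by
        rw [pd_sub (hw'.diff x) (hB.diff x)]; ring]
    have a := mul_le_mul_of_nonneg_left (ww_sub hg w B x) (h0 x)
    have b := (neg_le_abs _).trans ((abs_mul _ _).trans_le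
      (mul_le_mul_of_nonneg_left (abs_dn_le hg w χ x) (abs_nonneg (w x - B x))))
    nlinarith [Real.exp_pos (f x)]
  rw [integral_add' i2 (i3.add i4), integral_add' i3 i4] at this
  simp only [Pi.add_apply, Pi.mul_apply, Pi.sub_apply] at this
  linarith

theorem lap_sum (hg : Met g) {ι : Type} (s : Finset ι) {u : ι → X → ℝ}
    (hu : ∀ k, CAt 2 (u k) x) : lap g (fun y => ∑ k ∈ s, u k y) x = ∑ k ∈ s, lap g (u k) x := by
  classical
  induction s using Finset.induction_on with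
  | empty => simp [lap_const]
  | insert k s hk ih =>
    simp only [Finset.sum_insert hk]
    rw [hg.lap_add (hu k) (CAt.sum fun j _ => hu j), ih]

/-- the smooth maximum -/
def lse {ι : Type} (s : Finset ι) (q : ℝ) (w : ι → X → ℝ) (x : X) : ℝ :=
  q⁻¹ * Real.log (∑ k ∈ s, Real.exp (q * w k x))

section
variable {ι : Type} {t : Finset ι} {q : ℝ} {u : ι → X → ℝ}

omit [Mf0 n X] in
theorem lse_pos (ht : t.Nonempty) : 0 < ∑ k ∈ t, Real.exp (q * u k x) :=
  Finset.sum_pos (fun _ _ => Real.exp_pos _) ht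

theorem sm_lse (ht : t.Nonempty) (hu : ∀ k, Smooth (u k)) : Smooth (lse t q u) :=
  CD.mul cd_const (CD.log (CD.sum fun k _ => CD.exp (CD.mul cd_const (hu k)))
    fun _ => (lse_pos ht).ne')

omit [Mf0 n X] in
theorem le_lse (hq : 0 < q) {k : ι} (hk : k ∈ t) : u k x ≤ lse t q u x := by
  rw [lse, le_inv_mul_iff₀ hq, Real.le_log_iff_exp_le (lse_pos ⟨k, hk⟩)]
  exact Finset.single_le_sum (f := fun k => Real.exp (q * u k x)) (fun _ _ => (Real.exp_pos _).le) hk

/-- **the smooth maximum of subsolutions is almost a subsolution** -/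
theorem Rf_lse (hg : Met g) (ht : t.Nonempty) (hq : 1 / 2 ≤ q) (hu : ∀ k, CAt 2 (u k) x) :
    ∃ p : ι → ℝ, (∀ k, 0 ≤ p k) ∧ ∑ k ∈ t, p k = 1 ∧
      Rf g (lse t q u) x ≤ ∑ k ∈ t, p k * Rf g (u k) x ∧
      lse t q u x - Real.log t.card / q ≤ ∑ k ∈ t, p k * u k x := by
  have q0 : 0 < q := by linarith
  have Z0 := lse_pos (q := q) (u := u) (x := x) ht
  have N0 : (0 : ℝ) < t.card := by exact_mod_cast ht.card_pos
  set Z := ∑ k ∈ t, Real.exp (q * u k x) with hZ
  have p1 : ∑ k ∈ t, Real.exp (q * u k x) / Z = 1 := by rw [← Finset.sum_div, div_self Z0.ne']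
  refine ⟨fun k => Real.exp (q * u k x) / Z, fun k => by positivity, p1, ?_, ?_⟩
  · have cE : ∀ k, CAt 2 (fun y => Real.exp (q * u k y)) x := fun k =>
      ContDiffAt.exp (contDiffAt_const.mul (hu k))
    have d : ∀ r, HasDerivAt (fun r => Real.exp (q * r)) (Real.exp (q * r) * q) r := fun r => by
      simpa using ((hasDerivAt_id r).const_mul q).exp
    have l : ∀ k, lap g (fun y => Real.exp (q * u k y)) x = Real.exp (q * u k x) *
        (q * lap g (u k) x + q ^ 2 * ip g (u k) (u k) x) := fun k => by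
      rw [hg.lap_comp (φ := fun r => Real.exp (q * r)) (hu k) (by fun_prop),
        funext fun r => (d r).deriv, ((d _).mul_const q).deriv]
      ring
    obtain ⟨b, hb⟩ : ∃ b, b = df fun y => ∑ k ∈ t, Real.exp (q * u k y) := ⟨_, rfl⟩
    have b1 : iv g b b x = ∑ k ∈ t, Real.exp (q * u k x) * q * iv g (df (u k)) b x :=
      iv_sum t (fun i => by
        rw [hb, df, pd_sum t fun k _ => diff2 (cE k)]
        exact Finset.sum_congr rfl fun k _ => pd_comp (d _) (diff2 (hu k)) i) b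
    have j := Finset.sum_nonneg fun k (_ : k ∈ t) => mul_nonneg (Real.exp_pos (q * u k x)).le
      (iv_nonneg hg (fun i y => Z * q * df (u k) i y + (-1) * b i y) x)
    rw [Finset.sum_congr rfl fun k _ => by
      rw [iv_sq hg (s := Z * q) (t := -1) (b := df (u k)) (c := b) fun _ => rfl, iv_df]] at j
    have j1 : ∑ k ∈ t, Real.exp (q * u k x) * ((Z * q) ^ 2 * ip g (u k) (u k) x +
        2 * (Z * q) * -1 * iv g (df (u k)) b x + (-1) ^ 2 * iv g b b x) =
        Z * (Z * q ^ 2 * ∑ k ∈ t, Real.exp (q * u k x) * ip g (u k) (u k) x - iv g b b x) := by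
      rw [Finset.sum_congr rfl fun k _ => show _ = (Z * q) ^ 2 * (Real.exp (q * u k x) *
        ip g (u k) (u k) x) - 2 * Z * (Real.exp (q * u k x) * q * iv g (df (u k)) b x) +
          iv g b b x * Real.exp (q * u k x) by ring, Finset.sum_add_distrib, Finset.sum_sub_distrib,
        ← Finset.mul_sum, ← Finset.mul_sum, ← Finset.mul_sum, ← b1, ← hZ]
      ring
    have j2 := sub_nonneg.1 (nonneg_of_mul_nonneg_right (j1 ▸ j) Z0)
    rw [show lse t q u = fun y => q⁻¹ * Real.log (∑ k ∈ t, Real.exp (q * u k y)) from rfl,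
      (Rf_log hg (CAt.sum fun k _ => cE k) Z0 q⁻¹).1, lap_sum hg t cE, ← iv_df, ← hb, ← hZ]
    have e : ∑ k ∈ t, Real.exp (q * u k x) / Z * Rf g (u k) x = scal g x - 2 * q⁻¹ *
        ((∑ k ∈ t, lap g (fun y => Real.exp (q * u k y)) x) / Z) + (2 * q - 1) *
          ((∑ k ∈ t, Real.exp (q * u k x) * ip g (u k) (u k) x) / Z) := by
      rw [show scal g x = (∑ k ∈ t, Real.exp (q * u k x) / Z) * scal g x by rw [p1, one_mul],
        Finset.sum_mul, Finset.sum_div, Finset.sum_div,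
        Finset.mul_sum, Finset.mul_sum, ← Finset.sum_sub_distrib, ← Finset.sum_add_distrib]
      refine Finset.sum_congr rfl fun k _ => ?_
      rw [l, Rf]
      field_simp
      ring
    rw [e, show (2 * q⁻¹ - q⁻¹ ^ 2) * (iv g b b x / Z ^ 2) =
      (2 * q - 1) * (iv g b b x / (Z * q ^ 2) / Z) by field_simp]
    exact add_le_add_right (mul_le_mul_of_nonneg_left (div_le_div_of_nonneg_right
      ((div_le_iff₀' (by positivity)).2 j2) Z0.le) (by linarith)) _
  · have k := Finset.sum_le_sum fun k (_ : k ∈ t) => mul_le_mul_of_nonneg_left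
      (Real.log_le_sub_one_of_pos (show 0 < Z / (t.card * Real.exp (q * u k x)) by positivity))
      (show 0 ≤ Real.exp (q * u k x) / Z by positivity)
    have e1 : ∑ k ∈ t, Real.exp (q * u k x) / Z * (Z / (t.card * Real.exp (q * u k x)) - 1) = 0 := by
      rw [Finset.sum_congr rfl fun k _ => show _ = (t.card : ℝ)⁻¹ - Real.exp (q * u k x) / Z by
        field_simp, Finset.sum_sub_distrib, p1, Finset.sum_const, nsmul_eq_mul,
        mul_inv_cancel₀ N0.ne', sub_self]
    have e2 : ∑ k ∈ t, Real.exp (q * u k x) / Z * Real.log (Z / (t.card * Real.exp (q * u k x))) =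
        Real.log Z - Real.log t.card - q * ∑ k ∈ t, Real.exp (q * u k x) / Z * u k x := by
      rw [← one_mul (Real.log Z - _), ← p1, Finset.sum_mul, Finset.mul_sum,
        ← Finset.sum_sub_distrib]
      refine Finset.sum_congr rfl fun k _ => ?_
      rw [Real.log_div Z0.ne' (by positivity), Real.log_mul N0.ne' (by positivity), Real.log_exp]
      ring
    rw [e1, e2] at k
    rw [lse, ← hZ, ← div_eq_inv_mul, ← sub_div, div_le_iff₀' q0]
    linarith

/-- the smooth maximum for the logarithmic link -/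
theorem Rf_lse_lin (hg : Met g) (ht : t.Nonempty) (hq : 1 / 2 ≤ q) (hu : ∀ k, CAt 2 (u k) x)
    (hs : 0 < s) {v : ℝ} (h : ∀ k ∈ t, Rf g (u k) x ≤ v - u k x / s) :
    Rf g (lse t q u) x ≤ v + Real.log t.card / q / s - lse t q u x / s := by
  obtain ⟨p, p0, p1, p2, p3⟩ := Rf_lse hg ht hq hu
  have := Finset.sum_le_sum fun k hk => mul_le_mul_of_nonneg_left (h k hk) (p0 k)
  simp only [mul_sub, Finset.sum_sub_distrib, ← Finset.sum_mul, p1, ← mul_div_assoc,
    ← Finset.sum_div] at this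
  have q := div_le_div_of_nonneg_right p3 hs.le
  rw [sub_div] at q
  linarith

end

end Vale.Agent.P223R
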