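import Vale.Agent.P223R.Semi
import Vale.Agent.P210G.Grad
import Vale.Agent.P210L.Lbar

/-!
# P223R: relinking the weight, comparison, the mass inequality
-/

open MeasureTheory Filter Topology Set
open scoped ContDiff
open Vale.Agent.P366M Vale.Agent.P366M.Gr Vale.Agent.P366M.Y.C
open Vale.Agent.P366D (Rf Sec SmM IsoM smooth_comp cd_comp exp_half)
open Vale.Agent.P210G
open Vale.Agent.P210L (closeup sec_down)

noncomputable section

namespace Vale.Agent.P223R

variable {n : ℕ} {X : Type} [Mf0 n X] {g : Fld n X} {f f₁ f₂ F χ S Φ : X → ℝ} {x : X}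
  {V : Type} [NormedAddCommGroup V] [NormedSpace ℝ V] {Q : X → V} {Lk : V × ℝ → ℝ}
  {K K' O U : Set X} {s δ ε : ℝ}

theorem lap_exp (hg : Met g) (hf : CAt 2 f x) : lap g (fun y => Real.exp (f y / 2)) x =
    (scal g x - Rf g f x) / 4 * Real.exp (f x / 2) := by
  have d : ∀ t, HasDerivAt (fun t => Real.exp (t / 2)) (Real.exp (t / 2) / 2) t := fun t => by
    simpa only [div_eq_mul_inv, one_mul, id] using ((hasDerivAt_id t).div_const 2).exp
  rw [hg.lap_comp (φ := fun t => Real.exp (t / 2)) hf (by fun_prop), funext fun t => (d t).deriv,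
    ((d _).div_const 2).deriv, Rf]
  ring

theorem cd_prod {W : Type} [NormedAddCommGroup W] [NormedSpace ℝ W] {P : X → W} {m : WithTop ℕ∞}
    (hQ : CD m Q) (hP : CD m P) : CD m fun x => (Q x, P x) := fun e he => (hQ e he).prodMk (hP e he)

theorem bdd [CompactSpace X] (hf : Continuous f) : ∃ C, 0 ≤ C ∧ ∀ x, |f x| ≤ C := by
  obtain ⟨C, h⟩ := isCompact_univ.exists_bound_of_continuousOn hf.continuousOn
  exact ⟨|C|, abs_nonneg _, fun x => (h x (mem_univ x)).trans (le_abs_self _)⟩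

/-- **relinking on a closed manifold, between two barriers** -/
theorem relink_of [CompactSpace X] (hn : 0 < n) (hg : Met g) (hQ : CD ∞ Q)
    (hL : ∀ x t, ContDiffAt ℝ ∞ Lk (Q x, t)) (s1 : Smooth f₁) (s2 : Smooth f₂)
    (le : ∀ x, f₁ x ≤ f₂ x) (e1 : ∀ x, Rf g f₁ x ≤ Lk (Q x, f₁ x))
    (e2 : ∀ x, Lk (Q x, f₂ x) ≤ Rf g f₂ x) :
    ∃ f, Smooth f ∧ ∀ x, (f₁ x ≤ f x ∧ f x ≤ f₂ x) ∧ Rf g f x = Lk (Q x, f x) := by
  obtain ⟨C, -, hC⟩ := bdd s1.cont
  obtain ⟨a, a0, ha⟩ : ∃ a : ℝ, 0 < a ∧ ∀ x, 2 * a ≤ Real.exp (f₁ x / 2) :=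
    ⟨Real.exp (-C / 2) / 2, by positivity, fun x => by
      have := Real.exp_le_exp.2 (show -C / 2 ≤ f₁ x / 2 by linarith [(abs_le.1 (hC x)).1])
      linarith⟩
  obtain ⟨τ, t1, t2, t3⟩ : ∃ τ : ℝ → ℝ, ContDiff ℝ ∞ τ ∧ (∀ t, 0 < τ t) ∧ ∀ t, 2 * a ≤ t → τ t = t :=
    ⟨fun t => a + (t - a) * Real.smoothTransition ((t - a) / a), by
      have := @Real.smoothTransition.contDiff ⊤
      fun_prop, fun t => by
      beta_reduce
      rcases le_total t a with h | h
      · rw [Real.smoothTransition.zero_of_nonpos (div_nonpos_of_nonpos_of_nonneg (by linarith) a0.le)]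
        linarith
      · linarith [mul_nonneg (sub_nonneg.2 h) (Real.smoothTransition.nonneg ((t - a) / a))],
      fun t h => by
      beta_reduce
      rw [Real.smoothTransition.one_of_one_le ((one_le_div a0).2 (by linarith))]; ring⟩
  have sU : ∀ {f : X → ℝ}, Smooth f → Smooth fun x => Real.exp (f x / 2) :=
    fun hf => CD.exp (CD.div_const hf 2)
  have le' := fun x => Real.exp_le_exp.2 (div_le_div_of_nonneg_right (le x) zero_le_two)
  have lg : ∀ t : ℝ, 2 * Real.log (Real.exp (t / 2)) = t := fun t => by rw [Real.log_exp]; ring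
  obtain ⟨u, u1, u2⟩ := semi (V := ℝ × V)
    (φ := fun p => (p.1.1 - Lk (p.1.2, 2 * Real.log (τ p.2))) / 4 * τ p.2) hn hg
    (cd_prod hg.sm_scal hQ) (fun x t => ((contDiffAt_fst.fst.sub (ContDiffAt.comp _ (hL x _)
      (contDiffAt_fst.snd.prodMk (contDiffAt_const.mul
        ((t1.contDiffAt.comp _ contDiffAt_snd).log (t2 _).ne'))))).div_const 4).mul
      (t1.contDiffAt.comp _ contDiffAt_snd)) (sU s1) (sU s2) le'
    (fun x => by
      rw [lap_exp hg (s1.c2 x), t3 _ (ha x), lg]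
      exact mul_le_mul_of_nonneg_right (by linarith [e1 x]) (Real.exp_pos _).le)
    fun x => by
      rw [lap_exp hg (s2.c2 x), t3 _ ((ha x).trans (le' x)), lg]
      exact mul_le_mul_of_nonneg_right (by linarith [e2 x]) (Real.exp_pos _).le
  have u0 : ∀ x, 0 < u x := fun x => (Real.exp_pos _).trans_le (u2 x).1.1
  have sf : Smooth fun x => 2 * Real.log (u x) := CD.mul cd_const (CD.log u1 fun x => (u0 x).ne')
  have ex : ∀ x, Real.exp (2 * Real.log (u x) / 2) = u x := fun x => by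
    rw [mul_div_cancel_left₀ _ two_ne_zero, Real.exp_log (u0 x)]
  refine ⟨_, sf, fun x => ⟨⟨?_, ?_⟩, ?_⟩⟩
  · have := Real.exp_le_exp.1 ((u2 x).1.1.trans_eq (ex x).symm)
    linarith
  · have := Real.exp_le_exp.1 ((ex x).trans_le (u2 x).1.2)
    linarith
  · have k := lap_exp hg (sf.c2 x)
    simp only [ex] at k
    have := mul_right_cancel₀ (u0 x).ne' (k.symm.trans ((u2 x).2.trans
      (by rw [t3 _ ((ha x).trans (u2 x).1.1)])))
    linarith

/-- the link tends to infinity for small weights -/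
def Lo (Q : X → V) (Lk : V × ℝ → ℝ) : Prop :=
  ∀ K, IsCompact K → ∀ C, ∃ T, ∀ x ∈ K, ∀ t ≤ T, C ≤ Lk (Q x, t)

/-- the link has slope at most `-δ` -/
def Slope (Q : X → V) (Lk : V × ℝ → ℝ) (δ : ℝ) : Prop :=
  ∀ x t t', t ≤ t' → δ * (t' - t) ≤ Lk (Q x, t) - Lk (Q x, t')

theorem cont_lk (hQ : CD ∞ Q) (hL : ∀ x t, ContDiffAt ℝ ∞ Lk (Q x, t)) (hf : Continuous f) :
    Continuous fun x => Lk (Q x, f x) := continuous_iff_continuousAt.2 fun x =>
  ContinuousAt.comp (f := fun x => (Q x, f x)) (hL x _).continuousAt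
    (hQ.continuous.prodMk hf).continuousAt

theorem Slope.lo (h : Slope Q Lk δ) (hδ : 0 < δ) (hQ : CD ∞ Q)
    (hL : ∀ x t, ContDiffAt ℝ ∞ Lk (Q x, t)) : Lo Q Lk := fun K hK C => by
  obtain ⟨B, hB⟩ := hK.exists_bound_of_continuousOn
    (cont_lk hQ hL (continuous_const (y := 0))).continuousOn
  refine ⟨-((|C| + |B|) / δ), fun x hx t ht => ?_⟩
  have p : 0 ≤ (|C| + |B|) / δ := by positivity
  have := mul_le_mul_of_nonneg_left ht hδ.le
  rw [mul_neg, mul_div_cancel₀ _ hδ.ne'] at this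
  linarith [h x t 0 (by linarith), (abs_le.1 (hB x hx)).1, le_abs_self C, le_abs_self B]

theorem Rf_const (c : ℝ) : Rf g (fun _ => c) x = scal g x := by
  rw [Rf, lap_const, ip_const_left]; ring

/-- large constants are supersolutions -/
theorem Slope.hi (h : Slope Q Lk δ) (hδ : 0 < δ) (hg : Met g) (hQ : CD ∞ Q)
    (hL : ∀ x t, ContDiffAt ℝ ∞ Lk (Q x, t)) (hK : IsCompact K) :
    ∃ c, ∀ x ∈ K, Lk (Q x, c) ≤ Rf g (fun _ => c) x := by
  obtain ⟨B, hB⟩ := hK.exists_bound_of_continuousOn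
    ((cont_lk hQ hL (continuous_const (y := 0))).sub hg.sm_scal.cont).continuousOn
  refine ⟨|B| / δ, fun x hx => ?_⟩
  have := h x 0 (|B| / δ) (by positivity)
  rw [sub_zero, mul_div_cancel₀ _ hδ.ne'] at this
  have q : Lk (Q x, 0) - scal g x ≤ B := (abs_le.1 (hB x hx)).2
  rw [Rf_const]
  linarith [le_abs_self B]

/-- **relinking on a closed manifold below a supersolution** -/
theorem relink_le [CompactSpace X] (hn : 0 < n) (hg : Met g) (hQ : CD ∞ Q)
    (hL : ∀ x t, ContDiffAt ℝ ∞ Lk (Q x, t)) (lo : Lo Q Lk) (hF : Smooth F)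
    (e : ∀ x, Lk (Q x, F x) ≤ Rf g F x) :
    ∃ f, Smooth f ∧ ∀ x, f x ≤ F x ∧ Rf g f x = Lk (Q x, f x) := by
  obtain ⟨C, -, hC⟩ := bdd hg.sm_scal.cont
  obtain ⟨B, -, hB⟩ := bdd hF.cont
  obtain ⟨T, hT⟩ := lo _ isCompact_univ C
  obtain ⟨f, a, b⟩ := relink_of (f₁ := fun _ => min T (-B)) hn hg hQ hL cd_const hF
    (fun x => (min_le_right _ _).trans (abs_le.1 (hB x)).1) (fun x => by
      rw [Rf_const]
      exact (abs_le.1 (hC x)).2.trans (hT x (mem_univ x) _ (min_le_left _ _))) e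
  exact ⟨f, a, fun x => ⟨(b x).1.2, (b x).2⟩⟩

/-- **relinking on a closed manifold** -/
theorem relink [CompactSpace X] (hn : 0 < n) (hg : Met g) (hQ : CD ∞ Q)
    (hL : ∀ x t, ContDiffAt ℝ ∞ Lk (Q x, t)) (hδ : 0 < δ) (h : Slope Q Lk δ) :
    ∃ f, Smooth f ∧ ∀ x, Rf g f x = Lk (Q x, f x) := by
  obtain ⟨c, hc⟩ := h.hi hδ hg hQ hL isCompact_univ
  obtain ⟨f, a, b⟩ := relink_le hn hg hQ hL (h.lo hδ hQ hL) cd_const fun x => hc x (mem_univ x)
  exact ⟨f, a, fun x => (b x).2⟩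

/-- **comparison** -/
theorem cmp (hg : Met g) (hK : IsCompact K) (c1 : ContinuousOn f₁ K) (c2 : ContinuousOn f₂ K)
    (h : ∀ x ∈ K, f₁ x < f₂ x →
      K ∈ 𝓝 x ∧ CAt 2 f₁ x ∧ CAt 2 f₂ x ∧ Rf g f₂ x < Rf g f₁ x) : ∀ x ∈ K, f₂ x ≤ f₁ x := by
  intro x hx
  obtain ⟨z, hz, m⟩ := hK.exists_isMaxOn ⟨x, hx⟩ (c2.sub c1)
  by_contra q
  have m1 : f₂ x - f₁ x ≤ f₂ z - f₁ z := m hx
  obtain ⟨a, b, c, d⟩ := h z hz (by linarith)
  obtain ⟨p1, p2⟩ := ptm n X g (fun _ => 1) (fun y => f₂ y - f₁ y) z hg cd_const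
    (ContDiffAt.sub c b) (m.isLocalMax a)
  rw [wl_one, hg.lap_sub c b] at p2
  have := ip_of_pd_eq (g := g) (u := f₂) (v := f₁) fun i => by
    have := p1 i
    rw [pd_sub (diff2 c) (diff2 b)] at this
    linarith
  rw [Rf, Rf] at d
  linarith

/-- **the ground state substitution** -/
theorem gs (hg : Met g) (hf : Smooth f) (hχ : Smooth χ) (hc : HasCompactSupport χ)
    (hS : Continuous S) :
    ∫ x, (4 * ip g (fun y => χ y * Real.exp (f y / 2)) (fun y => χ y * Real.exp (f y / 2)) x +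
      (scal g x - S x) * (χ x * Real.exp (f x / 2)) ^ 2) ∂vol g =
    ∫ x, Real.exp (f x) * (4 * ip g χ χ x + (Rf g f x - S x) * χ x ^ 2) ∂vol g := by
  have sU : Smooth fun x => Real.exp (f x / 2) := CD.exp (CD.div_const hf 2)
  have s5 : Smooth fun x => χ x * Real.exp (f x / 2) := CD.mul hχ sU
  have s6 : Smooth fun x => χ x * (χ x * Real.exp (f x / 2)) := CD.mul hχ s5
  have c6 : HasCompactSupport fun x => χ x * (χ x * Real.exp (f x / 2)) := supp_mul_right hc
  have k := hg.ibp_lap' s6.llip c6 sU.two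
  have i1 := spec_int hg hS s5 (supp_mul_right hc) 4
  have i2 := hg.integrable_supp (s6.cont.mul (hg.cont_lap sU.two)) (supp_mul_right c6)
  have i3 := hg.integrable_supp (hg.cont_ip s6.one sU.one) (supp_ip c6 g _)
  have := integral_sub i1 ((i2.add i3).const_mul 4)
  rw [integral_const_mul, integral_add' i2 i3] at this
  simp only [Pi.add_apply, Pi.mul_apply] at this k
  rw [k, neg_add_cancel, mul_zero, sub_zero] at this
  rw [← this]
  refine integral_congr_ae (.of_forall fun x => ?_)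
  simp only [lap_exp hg (hf.c2 x), ← exp_half (f x), ip_mul_left (hχ.diff x) (s5.diff x),
    ip_mul_left (hχ.diff x) (sU.diff x), ip_mul_right (hχ.diff x) (sU.diff x),
    hg.ip_sy χ (fun x => Real.exp (f x / 2)) x]
  ring

theorem gs_int (hg : Met g) (hf : Smooth f) (hχ : Smooth χ) (hc : HasCompactSupport χ)
    (hS : Continuous S) (a : ℝ) : Integrable
      (fun x => Real.exp (f x) * (a * ip g χ χ x + (Rf g f x - S x) * χ x ^ 2)) (vol g) :=
  hg.integrable_supp (hf.cont.rexp.mul ((continuous_const.mul (hg.cont_ip hχ.one hχ.one)).add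
    (((sm_Rf hg hf).cont.sub hS).mul (hχ.cont.pow 2))))
    (supp_mul_left ((supp_mul_left (supp_ip hc g χ)).add (supp_mul_left (supp_sq hc))))

/-- the spectral bound, tested in the weight `exp f` -/
theorem spec_gs (h : Spec g S 4 O) (hg : Met g) (hS : Continuous S) (hf : Smooth f) (hχ : Smooth χ)
    (hc : HasCompactSupport χ) (hO : tsupport χ ⊆ O) :
    0 ≤ ∫ x, Real.exp (f x) * (4 * ip g χ χ x + (Rf g f x - S x) * χ x ^ 2) ∂vol g :=
  gs hg hf hχ hc hS ▸ h _ (CD.mul hχ (CD.exp (CD.div_const hf 2))) (supp_mul_right hc)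
    (tsupport_mul_subset_left.trans hO)

/-- **the mass inequality** -/
theorem mass (h : Spec g S 4 O) (hg : Met g) (hS : Continuous S) (hf : Smooth f) (hχ : Smooth χ)
    (hc : HasCompactSupport χ) (hO : tsupport χ ⊆ O) (hs : 0 ≤ s) (hΦ : Continuous Φ)
    (y : ∀ x, χ x ≠ 0 → Real.exp (f x) * (1 + s * (Rf g f x - S x)) ≤ Φ x) :
    ∫ x, χ x ^ 2 * Real.exp (f x) ∂vol g ≤
      ∫ x, χ x ^ 2 * Φ x ∂vol g + 4 * s * ∫ x, Real.exp (f x) * ip g χ χ x ∂vol g := by
  have k := mul_nonneg hs (spec_gs h hg hS hf hχ hc hO)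
  have i1 := gs_int hg hf hχ hc hS 4
  have i2 := hg.integrable_supp ((hχ.cont.pow 2).mul hf.cont.rexp) (supp_mul_right (supp_sq hc))
  have i3 := hg.integrable_supp ((hχ.cont.pow 2).mul hΦ) (supp_mul_right (supp_sq hc))
  have i4 := hg.integrable_supp (hf.cont.rexp.mul (hg.cont_ip hχ.one hχ.one))
    (supp_mul_left (supp_ip hc g χ))
  have := integral_mono (i2.add (i1.const_mul s)) (i3.add (i4.const_mul (4 * s))) fun x => by
    simp only [Pi.add_apply, Pi.mul_apply, Pi.pow_apply]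
    by_cases hx : χ x = 0
    · rw [hx]; ring_nf; rfl
    · linarith [mul_le_mul_of_nonneg_right (y x hx) (sq_nonneg (χ x))]
  rw [integral_add' i2 (i1.const_mul s), integral_add' i3 (i4.const_mul _), integral_const_mul,
    integral_const_mul] at this
  simp only [Pi.mul_apply, Pi.pow_apply] at this
  linarith

/-- the Young inequality for the logarithmic link -/
theorem young {t r v σ : ℝ} (hs : 0 < s) (h : r ≤ v - t / s) :
    Real.exp t * (1 + s * (r - σ)) ≤ Real.exp (s * (v - σ)) := by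
  have := mul_le_mul_of_nonneg_left h hs.le
  rw [mul_sub, mul_div_cancel₀ _ hs.ne'] at this
  rw [show s * (v - σ) = t + (s * (v - σ) - t) by ring, Real.exp_add]
  exact mul_le_mul_of_nonneg_left (by linarith [Real.add_one_le_exp (s * (v - σ) - t)])
    (Real.exp_pos _).le

end Vale.Agent.P223R
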