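import Vale.Agent.P366D.Pos
import Vale.Agent.P366Q.T.Subs

/-!
# P223R: semilinear equations on closed manifolds between a subsolution and a supersolution
-/

open Metric Filter Topology Set
open scoped ContDiff NNReal
open Vale.Agent.P366.Stmt (E)
open Vale.Agent.P366M Vale.Agent.P366D

noncomputable section

namespace Vale.Agent.P223R

variable {n : ℕ} {V : Type} [NormedAddCommGroup V] [NormedSpace ℝ V] {φ : V × ℝ → ℝ}

theorem semi_mfs {M : Type} [Mfs n M] [CompactSpace M] (hb : ∀ x : M, ‖px x‖ < R0 M) (hn : 0 < n)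
    {g : Fld n M} (hg : Met g) {Q : M → V} (hQ : CD ∞ Q)
    (hφ : ∀ x t, ContDiffAt ℝ ∞ φ (Q x, t)) {u₁ u₂ : M → ℝ} (s1 : Smooth u₁) (s2 : Smooth u₂)
    (le : ∀ x, u₁ x ≤ u₂ x) (e1 : ∀ x, φ (Q x, u₁ x) ≤ lap g u₁ x)
    (e2 : ∀ x, lap g u₂ x ≤ φ (Q x, u₂ x)) :
    ∃ u, Smooth u ∧ ∀ x, (u₁ x ≤ u x ∧ u x ≤ u₂ x) ∧ lap g u x = φ (Q x, u x) := by
  have hf : Flat g (R0 M + 1) := ⟨le_rfl, fun x hx => absurd (hb x) (by linarith)⟩
  have bl : ∀ {f : M → ℝ}, Smooth f → ∃ K, BL K f :=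
    fun hf => bl_of_const hf (c := 0) fun y hy => absurd (hb y) hy.not_gt
  have hU : Wt g fun _ => 1 := ⟨cd_const, 1, one_pos, 1, fun x => by simp [fd_const, lap_const]⟩
  obtain ⟨A₁, b1⟩ := bl s1
  obtain ⟨A₂, b2⟩ := bl s2
  obtain ⟨KQ, bQ⟩ : ∃ K, BL K Q := by
    obtain ⟨A, hA⟩ := isCompact_univ.exists_bound_of_continuousOn hQ.continuous.continuousOn
    obtain ⟨K, -, hK⟩ := fd_bdd (hQ.of_le (by simp)) (R0 M)
    exact exists_bl (hQ.differentiable (by simp)) (fun x => hA x (mem_univ x))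
      fun x => hK x (hb x).le
  obtain ⟨B, B1, B2⟩ : ∃ B, A₁ ≤ B ∧ A₂ ≤ B := ⟨_, le_max_left _ _, le_max_right _ _⟩
  have cs : IsCompact (range Q ×ˢ Icc (-B) B) := (isCompact_range hQ.continuous).prod isCompact_Icc
  obtain ⟨L, hL⟩ := (show LocallyLipschitzOn (range Q ×ˢ Icc (-B) B) φ by
    rintro ⟨_, t⟩ ⟨⟨x, rfl⟩, -⟩
    obtain ⟨K, s, hs, h⟩ := ((hφ x t).of_le (by simp : (1 : WithTop ℕ∞) ≤ ∞)).exists_lipschitzOnWith
    exact ⟨K, s, mem_nhdsWithin_of_mem_nhds hs, h⟩).exists_lipschitzOnWith_of_compact cs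
  obtain ⟨A, hA⟩ := cs.exists_bound_of_continuousOn hL.continuousOn
  obtain ⟨l₀, h0⟩ := ress n M g _ _ hn hg hf hU
  obtain ⟨l, l1, l2, l3⟩ : ∃ l, l₀ ≤ l ∧ (L : ℝ) ≤ l ∧ 1 ≤ l :=
    ⟨max l₀ (max L 1), by simp, by simp, by simp⟩
  have l0 := one_pos.trans_le l3
  have h1 := h0 l l1
  obtain ⟨D, hD⟩ := hU.grad hn hg hf
  obtain ⟨C', C1, hC'⟩ := bl_of_fd M
  obtain ⟨N, M1, M2⟩ : ∃ N, B ≤ N ∧ D * (B / 1 + 1 * (2 * (l * B) + A)) ≤ N :=
    ⟨_, le_max_left _ _, le_max_right _ _⟩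
  have bt : ∀ {t : ℝ} x, u₁ x ≤ t ∧ t ≤ u₂ x → |t| ≤ B := fun x k => abs_le.2
    ⟨by linarith [(abs_le.1 (b1.1 x)).1, k.1], by linarith [(abs_le.1 (b2.1 x)).2, k.2]⟩
  have mm : ∀ x {t : ℝ}, |t| ≤ B → (Q x, t) ∈ range Q ×ˢ Icc (-B) B := fun x _ k =>
    ⟨mem_range_self x, abs_le.1 k⟩
  have lp : ∀ x {t t' : ℝ}, |t| ≤ B → |t'| ≤ B → t ≤ t' →
      |φ (Q x, t') - φ (Q x, t)| ≤ l * (t' - t) := fun x t t' a b c => by
    have := hL.dist_le_mul _ (mm x b) _ (mm x a)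
    rw [Prod.dist_eq, dist_self, max_eq_right dist_nonneg, Real.dist_eq, Real.dist_eq,
      abs_of_nonneg (sub_nonneg.2 c)] at this
    exact this.trans (mul_le_mul_of_nonneg_right l2 (sub_nonneg.2 c))
  let S := {h : M → ℝ // BL (C' * N) h ∧ ∀ x, u₁ x ≤ h x ∧ h x ≤ u₂ x}
  have ab : ∀ (h : S) x, |h.1 x| ≤ B := fun h x => bt x (h.2.2 x)
  have cmp : ∀ {v w : M → ℝ} {A A' : ℝ}, CD 2 v → CD 2 w → (∀ x, |v x| ≤ A) → (∀ x, |w x| ≤ A') →
      (∀ x, l * v x - lap g v x ≤ l * w x - lap g w x) → ∀ x, v x ≤ w x :=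
    fun a b c d e => hU.cmp hg hf l0 a b c d fun x => by simpa only [wl_one, one_pow, mul_one] using e x
  have step : ∀ h : S, ∃ w : S, CD 2 w.1 ∧ (∀ Φ : M × ℝ → ℝ,
      (∀ e ∈ At M, ContDiff ℝ ∞ fun p : E n × ℝ => Φ (e.symm p.1, p.2)) →
        (∀ x, wl g (fun _ => 1) w.1 x = Φ (x, w.1 x)) → Smooth w.1) ∧
      ∀ x, l * w.1 x - lap g w.1 x = l * h.1 x - φ (Q x, h.1 x) := by
    rintro ⟨h, b, a⟩
    have b' : BL (max A (L * max KQ (C' * N))) fun x => φ (Q x, h x) :=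
      ⟨fun x => (hA _ (mm x (bt x (a x)))).trans (le_max_left _ _), fun x y => by
        rw [← dist_eq_norm]
        refine (hL.dist_le_mul _ (mm x (bt x (a x))) _ (mm y (bt y (a y)))).trans (le_trans ?_
          (mul_le_mul_of_nonneg_right (le_max_right _ _) dist_nonneg))
        rw [mul_assoc, Prod.dist_eq, dist_eq_norm, dist_eq_norm, max_mul_of_nonneg _ _ dist_nonneg]
        exact mul_le_mul_of_nonneg_left (max_le_max (bQ.2 x y) (b.2 x y)) L.2⟩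
    obtain ⟨w, w1, ⟨B', w2⟩, w3, w4⟩ := h1 _ _ (((bl_const (M := M) l).mul b).sub b')
    simp only [wl_one, one_pow, mul_one, one_mul] at w4
    have a' : ∀ x, u₁ x ≤ w x ∧ w x ≤ u₂ x := fun x =>
      ⟨cmp s1.two w1 b1.1 w2 (fun x => by
        linarith [w4 x, e1 x, (abs_le.1 (lp x (bt x ⟨le_rfl, le x⟩) (bt x (a x)) (a x).1)).2]) x,
      cmp w1 s2.two w2 b2.1 (fun x => by
        linarith [w4 x, e2 x, (abs_le.1 (lp x (bt x (a x)) (bt x ⟨le x, le_rfl⟩) (a x).2)).2]) x⟩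
    refine ⟨⟨w, hC' ℝ w N fun x => ⟨w1.differentiable (by norm_num) x, (bt x (a' x)).trans M1,
      (hD 1 B _ x w one_pos le_rfl fun y _ => ⟨w1.contDiffAt, bt y (a' y), ?_⟩).trans M2⟩, a'⟩, w1,
      w3, w4⟩
    have p1 := abs_le.1 (bt y (a' y))
    have p2 := abs_le.1 (bt y (a y))
    have p3 := abs_le.1 (hA _ (mm y (bt y (a y))))
    rw [wl_one, abs_le]
    constructor <;> nlinarith [w4 y, p1.1, p1.2, p2.1, p2.2, p3.1, p3.2]
  choose T T1 T2 T4 using step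
  have mono : ∀ h h' : S, (∀ x, h.1 x ≤ h'.1 x) → ∀ x, (T h).1 x ≤ (T h').1 x := fun h h' k =>
    cmp (T1 h) (T1 h') (ab _) (ab _) fun x => by
      linarith [T4 h x, T4 h' x, (abs_le.1 (lp x (ab h x) (ab h' x) (k x))).2]
  let o : S := ⟨u₂, b2.mono (by nlinarith [b2.nonneg]), fun x => ⟨le x, le_rfl⟩⟩
  let u : ℕ → S := fun k => T^[k] o
  have us : ∀ k, u (k + 1) = T (u k) := fun k => Function.iterate_succ_apply' T k o
  have an : ∀ x, Antitone fun k => (u k).1 x := fun x => antitone_nat_of_succ_le fun k => by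
    induction k generalizing x with
    | zero => exact ((u 1).2.2 x).2
    | succ k ih =>
      rw [us (k + 1), us k]
      exact mono (T (u k)) (u k) (fun y => by rw [← us]; exact ih y) x
  have bd : ∀ x, BddBelow (range fun k => (u k).1 x) := fun x =>
    ⟨u₁ x, by rintro _ ⟨k, rfl⟩; exact ((u k).2.2 x).1⟩
  have lim := fun x => tendsto_atTop_ciInf (an x) (bd x)
  let h : S := ⟨fun x => ⨅ k, (u k).1 x, ⟨fun x => le_of_tendsto' (lim x).norm fun k => (u k).2.1.1 x,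
    fun x y => le_of_tendsto' ((lim x).sub (lim y)).norm fun k => (u k).2.1.2 x y⟩,
    fun x => ⟨ge_of_tendsto' (lim x) fun k => ((u k).2.2 x).1,
      le_of_tendsto' (lim x) fun k => ((u k).2.2 x).2⟩⟩
  have lo : ∀ k x, h.1 x ≤ (u k).1 x := fun k x => ciInf_le (bd x) k
  have ct : ∀ w : S, Continuous w.1 := fun w => w.2.1.cont
  have fx : (T h).1 = h.1 := funext fun x => le_antisymm
    (le_ciInf fun k => (mono h (u k) (lo k) x).trans (by rw [← us]; exact an x k.le_succ))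
    (le_of_forall_pos_le_add fun e he => by
      obtain ⟨k, k2⟩ := (Metric.tendstoUniformlyOn_iff.1 (Antitone.tendstoUniformlyOn_of_forall_tendsto
        isCompact_univ (fun k => (ct (u k)).continuousOn) (fun x _ => an x)
        (ct h).continuousOn fun x _ => lim x) (e / 2) (by positivity)).exists
      have := cmp (w := fun y => (T h).1 y + e) (A' := B + e) (T1 (u k)) ((T1 h).add cd_const) (ab _)
        (fun y => (abs_add_le _ _).trans (add_le_add (ab _ y) (abs_of_pos he).le)) (fun y => by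
          have := k2 y (mem_univ y)
          rw [Real.dist_eq, abs_lt] at this
          rw [lap_add_const]
          nlinarith [T4 (u k) y, T4 h y, (abs_le.1 (lp y (ab h y) (ab (u k) y) (lo k y))).1,
            this.1]) x
      rw [← us] at this
      linarith [lo (k + 1) x])
  have eq : ∀ x, lap g (T h).1 x = φ (Q x, (T h).1 x) := fun x => by
    have := T4 h x
    rw [fx] at this ⊢
    linarith
  exact ⟨(T h).1, T2 h (fun q => φ (Q q.1, q.2)) (fun e he => contDiff_iff_contDiffAt.2 fun p =>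
    (hφ _ _).comp p ((ContDiff.comp (hQ e he) contDiff_fst).prodMk contDiff_snd).contDiffAt)
    fun x => (congrFun (wl_one g _) x).trans (eq x), fun x => ⟨(T h).2.2 x, eq x⟩⟩

/-- **SEMI** -/
theorem semi {X : Type} [Mf0 n X] [CompactSpace X] (hn : 0 < n) {g : Fld n X} (hg : Met g)
    {Q : X → V} (hQ : CD ∞ Q) (hφ : ∀ x t, ContDiffAt ℝ ∞ φ (Q x, t)) {u₁ u₂ : X → ℝ}
    (s1 : Smooth u₁) (s2 : Smooth u₂) (le : ∀ x, u₁ x ≤ u₂ x)
    (e1 : ∀ x, φ (Q x, u₁ x) ≤ lap g u₁ x) (e2 : ∀ x, lap g u₂ x ≤ φ (Q x, u₂ x)) :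
    ∃ u, Smooth u ∧ ∀ x, (u₁ x ≤ u x ∧ u x ≤ u₂ x) ∧ lap g u x = φ (Q x, u x) := by
  obtain ⟨M, _, ψ, h1, h2, h3⟩ := exists_mfs_cpt X
  have := ψ.compactSpace
  have hg' : Met (pull ψ.symm g) := hg.pull h3 fun x => inj_of_left (B := jm ψ (ψ.symm x)) (by
    rw [← jm_comp (h2 _) (h3 x)]
    simpa only [ψ.apply_symm_apply] using jm_id x)
  have iso : ∀ x, IsoM ψ.symm g (pull ψ.symm g) x := fun x => ⟨.of_forall h3, hg, hg', .rfl⟩
  obtain ⟨u, u1, u2⟩ := semi_mfs h1 hn hg' (cd_comp h3 le_rfl hQ) (fun _ => hφ _)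
    (smooth_comp h3 s1) (smooth_comp h3 s2) (fun _ => le _)
    (fun x => (e1 _).trans_eq ((iso x).lap (s1.c2 _) .rfl).symm)
    fun x => ((iso x).lap (s2.c2 _) .rfl).trans_le (e2 _)
  refine ⟨_, smooth_comp h2 u1, fun x => ?_⟩
  have := (iso (ψ x)).lap (w := u) ((smooth_comp h2 u1).c2 _) (.of_forall fun _ => by simp)
  have k := u2 (ψ x)
  rw [this, ψ.symm_apply_apply] at k
  exact k

end Vale.Agent.P223R
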